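import Vale.Agent.P073Z.Sk1

/-!
# The pointwise Lipschitz constant: bounds and measurability
-/

open Set Metric Topology Filter MeasureTheory
open scoped ENNReal NNReal

namespace P073.Cone

variable {S T : Type} [MetricSpace S] [PseudoEMetricSpace T]

theorem lipAt_le {h : S → T} {X : Set S} {x : S} {c : ℝ≥0∞}
    (H : ∀ᶠ y in 𝓝[X] x, edist (h y) (h x) ≤ c * edist y x) : lipAt h X x ≤ c := by
  rw [eventually_nhdsWithin_iff] at H
  obtain ⟨r, hr, hb⟩ := Metric.eventually_nhds_iff_ball.1 H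
  refine iInf₂_le_of_le r hr (iSup₂_le fun y hy => ?_)
  exact ENNReal.div_le_of_le_mul (hb y hy.2 hy.1)

theorem ev_of_lipAt_lt {h : S → T} {X : Set S} {x : S} {c : ℝ≥0∞} (H : lipAt h X x < c) :
    ∀ᶠ y in 𝓝[X] x, edist (h y) (h x) ≤ c * edist y x := by
  unfold lipAt at H
  simp only [iInf_lt_iff] at H
  obtain ⟨r, hr, H⟩ := H
  rw [eventually_nhdsWithin_iff]
  filter_upwards [ball_mem_nhds x hr] with y hy hyX
  by_cases hyx : y = x
  · subst hyx; simp
  · have h1 : edist (h y) (h x) / edist y x ≤ c :=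
      (le_iSup₂_of_le (f := fun (y : S) (_ : y ∈ X ∩ ball x r) => edist (h y) (h x) / edist y x)
        y ⟨hyX, hy⟩ le_rfl).trans H.le
    exact (ENNReal.div_le_iff (by simpa using hyx) (edist_ne_top _ _)).1 h1

theorem le_of_forall_gt_aff {a l K e : ℝ≥0∞} (hK : K ≠ 0) (hK' : K ≠ ⊤)
    (H : ∀ c, l < c → a ≤ K * c + e) : a ≤ K * l + e := by
  by_cases hl : l = ⊤
  · rw [hl, ENNReal.mul_top hK, top_add]; exact le_top
  · have ht : Tendsto (fun c => K * c + e) (𝓝[>] l) (𝓝 (K * l + e)) :=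
      (((ENNReal.continuous_const_mul hK').add continuous_const).tendsto l).mono_left
        nhdsWithin_le_nhds
    have : (𝓝[>] l).NeBot := nhdsGT_neBot_of_exists_gt ⟨⊤, lt_top_iff_ne_top.2 hl⟩
    exact ge_of_tendsto ht (eventually_nhdsWithin_of_forall fun c hc => H c hc)

/-- only the germ of the set matters -/
theorem lipAt_le_of_mem {h h' : S → T} {X Y : Set S} {x : S} (hY : Y ∈ 𝓝[X] x) (hx : x ∈ Y)
    (he : EqOn h h' Y) : lipAt h X x ≤ lipAt h' Y x := by
  refine le_of_forall_gt_imp_ge_of_dense fun c hc => lipAt_le ?_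
  have h1 := ev_of_lipAt_lt hc
  have h2 : 𝓝[X] x ≤ 𝓝[Y] x := nhdsWithin_le_iff.2 hY
  filter_upwards [h2 h1, hY] with y hy hyY
  rw [he hyY, he hx]; exact hy

theorem lipAt_le_of_lip {h : S → T} {X : Set S} {x : S} {K : ℝ≥0} (H : LipschitzOnWith K h X)
    (hx : x ∈ X) : lipAt h X x ≤ K :=
  lipAt_le (eventually_nhdsWithin_of_forall fun _ hy => H hy hx)

theorem lipAt_eq_nat (h : S → T) (X : Set S) (x : S) : lipAt h X x =
    ⨅ m : ℕ, ⨆ (y : S) (_ : y ∈ X ∩ ball x (1 / ((m:ℝ) + 1))), edist (h y) (h x) / edist y x := by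
  apply le_antisymm
  · exact le_iInf fun m => iInf₂_le_of_le (1 / ((m:ℝ) + 1)) Nat.one_div_pos_of_nat le_rfl
  · refine le_iInf₂ fun r hr => ?_
    obtain ⟨m, hm⟩ := exists_nat_one_div_lt hr
    refine iInf_le_of_le m (iSup₂_le fun y hy => ?_)
    exact le_iSup₂_of_le (f := fun (y : S) (_ : y ∈ X ∩ ball x r) => edist (h y) (h x) / edist y x)
      y ⟨hy.1, ball_subset_ball hm.le hy.2⟩ le_rfl

theorem lsc_sup {h : S → T} {X : Set S} (hc : ContinuousOn h X) (r : ℝ) :
    LowerSemicontinuousOn (fun x => ⨆ (y : S) (_ : y ∈ X ∩ ball x r),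
      edist (h y) (h x) / edist y x) X := by
  intro x hx c hc'
  simp only [lt_iSup_iff] at hc'
  obtain ⟨y, hy, hlt⟩ := hc'
  have hyx : y ≠ x := by
    rintro rfl
    simp at hlt
  have h1 : ContinuousWithinAt (fun x' => edist (h y) (h x') / edist y x') X x := by
    refine ENNReal.Tendsto.div (tendsto_const_nhds.edist (hc x hx)) (Or.inr ?_)
      ((tendsto_const_nhds.edist tendsto_id).mono_left nhdsWithin_le_nhds) (Or.inl ?_)
    · simpa using hyx
    · exact edist_ne_top _ _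
  have h2 : ∀ᶠ x' in 𝓝[X] x, c < edist (h y) (h x') / edist y x' := h1.eventually (lt_mem_nhds hlt)
  have h3 : ∀ᶠ x' in 𝓝[X] x, x' ∈ ball y r :=
    mem_nhdsWithin_of_mem_nhds (isOpen_ball.mem_nhds (mem_ball_comm.1 hy.2))
  filter_upwards [h2, h3] with x' h2' h3'
  exact h2'.trans_le (le_iSup₂_of_le
    (f := fun (y : S) (_ : y ∈ X ∩ ball x' r) => edist (h y) (h x') / edist y x')
    y ⟨hy.1, mem_ball_comm.1 h3'⟩ le_rfl)

theorem aemeasurable_lipAt [MeasurableSpace S] [BorelSpace S] {h : S → T} {X : Set S}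
    (hX : MeasurableSet X) (hc : ContinuousOn h X) (μ : Measure S) :
    AEMeasurable (lipAt h X) (μ.restrict X) := by
  have : lipAt h X = fun x => ⨅ m : ℕ, ⨆ (y : S) (_ : y ∈ X ∩ ball x (1 / ((m:ℝ) + 1))),
      edist (h y) (h x) / edist y x := funext fun x => lipAt_eq_nat h X x
  rw [this]
  refine AEMeasurable.iInf fun m => ?_
  have h1 := (lowerSemicontinuous_restrict_iff.2 (lsc_sup hc (1 / ((m:ℝ) + 1)))).measurable
  exact (aemeasurable_restrict_iff_comap_subtype hX).2 h1.aemeasurable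

end P073.Cone
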