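import Vale.Agent.P073Z.Cone.Push
import Vale.Agent.P073Z.Cone.Lip

/-!
# The energy on a thin shell is controlled by the boundary energy
-/

open Set Metric Topology Filter MeasureTheory
open scoped ENNReal NNReal

namespace P073.Cone

variable {k : ℕ} {F : Type} [NormedAddCommGroup F] [NormedSpace ℝ F]

/-- the only property of affine maps which is used -/
def Aff {n : ℕ} (g : (Fin n → ℝ) → F) (Λ : ℝ) (X : Set (Fin n → ℝ)) : Prop :=
  ∀ a ∈ X, ∀ b ∈ X, ∀ a' ∈ X, ∀ b' ∈ X, ‖g a - g b‖ ≤ ‖g a' - g b'‖ + Λ * ‖(a - b) - (a' - b')‖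

theorem aff_of_affine {n : ℕ} {g : (Fin n → ℝ) → F} {Λ : ℝ} {X : Set (Fin n → ℝ)}
    (A : (Fin n → ℝ) →ᵃ[ℝ] F) (hA : EqOn g A X) (hΛ : ∀ v, ‖A.linear v‖ ≤ Λ * ‖v‖) :
    Aff g Λ X := by
  intro a ha b hb a' ha' b' hb'
  have e : ∀ x y, A x - A y = A.linear (x - y) := fun x y => (A.linearMap_vsub x y).symm
  rw [hA ha, hA hb, hA ha', hA hb', e, e]
  have : A.linear (a - b) = A.linear (a' - b') + A.linear ((a - b) - (a' - b')) := by
    rw [← map_add]; congr 1; abel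
  rw [this]
  exact (norm_add_le _ _).trans (add_le_add le_rfl (hΛ _))

theorem convex_slice (i : Fin (k + 1)) (ε : ℝ) {C : Set (Fin (k + 1) → ℝ)} (hC : Convex ℝ C) :
    Convex ℝ {v : Fin k → ℝ | (Fin.insertNth i ε v : Fin (k + 1) → ℝ) ∈ C} := by
  intro v hv w hw a b ha hb hab
  have : (Fin.insertNth i ε (a • v + b • w) : Fin (k + 1) → ℝ) =
      a • (Fin.insertNth i ε v : Fin (k + 1) → ℝ) + b • (Fin.insertNth i ε w : Fin (k + 1) → ℝ) := by
    funext m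
    revert m
    rw [Fin.forall_iff_succAbove i]
    constructor
    · simp only [Fin.insertNth_apply_same, Pi.add_apply, Pi.smul_apply, smul_eq_mul]
      rw [← add_mul, hab, one_mul]
    · intro j
      simp
  show (Fin.insertNth i ε (a • v + b • w) : Fin (k + 1) → ℝ) ∈ C
  rw [this]
  exact hC hv hw ha hb hab

/-- a convex set containing a piece of a face and an inner point contains a half neighbourhood -/
theorem ev_mem_of_slice {i : Fin (k + 1)} {ε δ : ℝ} (hε : ε * ε = 1) (hδ : 0 < δ)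
    {C : Set (Fin (k + 1) → ℝ)} (hC : Convex ℝ C) {y : Fin (k + 1) → ℝ} (hy : y i = ε)
    (h1 : (1 - δ) • y ∈ C)
    (h2 : {v : Fin k → ℝ | (Fin.insertNth i ε v : Fin (k + 1) → ℝ) ∈ C} ∈ 𝓝 (Fin.removeNth i y)) :
    ∀ᶠ x in 𝓝 y, ‖x‖ ≤ 1 → x ∈ C := by
  set lam : (Fin (k + 1) → ℝ) → ℝ := fun x => (1 - ε * x i) / δ with hlam
  set w : (Fin (k + 1) → ℝ) → Fin (k + 1) → ℝ :=
    fun x => (1 - lam x)⁻¹ • (x - lam x • ((1 - δ) • y)) with hw
  have l0 : lam y = 0 := by simp only [hlam, hy, hε, sub_self, zero_div]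
  have lc : Continuous lam := by rw [hlam]; fun_prop
  have wc : ContinuousAt w y := by
    refine ContinuousAt.smul ((continuous_const.sub lc).continuousAt.inv₀ ?_) (by fun_prop)
    simp [l0]
  have w0 : w y = y := by simp [hw, l0]
  have e1 : ∀ᶠ x in 𝓝 y, lam x < 1 := lc.continuousAt.eventually (gt_mem_nhds (by simp [l0]))
  have e2 : ∀ᶠ x in 𝓝 y, (Fin.insertNth i ε (Fin.removeNth i (w x)) : Fin (k + 1) → ℝ) ∈ C := by
    have := ((lipschitz_removeNth i).continuous.continuousAt.comp wc)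
    refine this.eventually (p := fun v => (Fin.insertNth i ε v : Fin (k + 1) → ℝ) ∈ C) ?_
    simp only [Function.comp, w0]
    exact h2
  filter_upwards [e1, e2] with x a1 a2 hx
  have hε1 : |ε| = 1 := by
    have : |ε| * |ε| = 1 := by rw [← abs_mul, hε, abs_one]
    nlinarith [abs_nonneg ε]
  have a0 : 0 ≤ lam x := by
    refine div_nonneg (sub_nonneg.2 ((le_abs_self _).trans ?_)) hδ.le
    rw [abs_mul, hε1, one_mul]; exact (abs_le_norm x i).trans hx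
  have hne : 1 - lam x ≠ 0 := (sub_pos.2 a1).ne'
  have wi : w x i = ε := by
    simp only [hw, Pi.smul_apply, Pi.sub_apply, smul_eq_mul, hy]
    rw [inv_mul_eq_iff_eq_mul₀ hne]
    have : lam x * δ = 1 - ε * x i := div_mul_cancel₀ _ hδ.ne'
    linear_combination ε * this - x i * hε
  rw [Fin.insertNth_removeNth, ← wi, Function.update_eq_self] at a2
  have := hC a2 h1 (sub_pos.2 a1).le a0 (by ring)
  simp only [hw] at this
  rwa [smul_inv_smul₀ hne, sub_add_cancel] at this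

theorem locCone_shell (n : ℕ) (a : ℝ) : LocCone {x : Fin n → ℝ | a ≤ ‖x‖ ∧ ‖x‖ ≤ 1} :=
  (locCone_setOf_ge continuous_norm conicalOn_norm a).inter
    (locCone_setOf_le continuous_norm conicalOn_norm 1)

theorem exists_good [FiniteDimensional ℝ F] (hS : STM) {g : (Fin (k + 1) → ℝ) → F}
    (hg : PLOn g (Sh (k + 1))) : ∃ Λ : ℝ, 0 ≤ Λ ∧ volume {x ∈ Sh (k + 1) |
      ¬ ∃ ρ > 0, Aff g Λ (Sh (k + 1) ∩ ball (Th 1 1 x) ρ)} = 0 := by
  obtain ⟨𝒮, -, hX, hA⟩ := hS (isCompact_Sh (k + 1)) (locCone_shell _ _) hg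
  choose! A hA using hA
  refine ⟨∑ s ∈ 𝒮, ‖LinearMap.toContinuousLinearMap (A s).linear‖,
    Finset.sum_nonneg fun _ _ => norm_nonneg _, ?_⟩
  set N : Fin (k + 1) × Bool → Set (Fin k → ℝ) := fun q => ⋃ s ∈ 𝒮, frontier
    {v : Fin k → ℝ | (Fin.insertNth q.1 (if q.2 then 1 else -1) v : Fin (k + 1) → ℝ) ∈
      convexHull ℝ (s : Set (Fin (k + 1) → ℝ))} with hN
  have hN0 : ∀ q, volume (N q) = 0 := fun q =>
    (measure_biUnion_null_iff 𝒮.countable_toSet).2 fun s _ =>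
      (convex_slice _ _ (convex_convexHull ℝ _)).addHaar_frontier volume
  refine measure_mono_null (t := ⋃ q : Fin (k + 1) × Bool, {x ∈ Sh (k + 1) |
    Th 1 1 x q.1 = (if q.2 then 1 else -1) ∧ Fin.removeNth q.1 (Th 1 1 x) ∈ N q}) ?_
    (measure_iUnion_null fun q => nonpos_iff_eq_zero.1 ((vol_face _ _ _).trans
      (by rw [hN0, mul_zero])))
  rintro x ⟨hx, hbad⟩
  have hy := pr_mem hx
  obtain ⟨i, b, hi⟩ := exists_face hy
  refine mem_iUnion.2 ⟨(i, b), hx, hi, ?_⟩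
  by_contra hgood
  apply hbad
  generalize Th 1 1 x = y at hy hi hgood
  have hy1 : ‖y‖ = 1 := mem_sphere_zero_iff_norm.1 hy
  obtain ⟨s, hs, hfr⟩ : ∃ s ∈ 𝒮, ∃ᶠ δ in 𝓝[>] (0:ℝ),
      (1 - δ) • y ∈ convexHull ℝ (s : Set (Fin (k + 1) → ℝ)) := by
    by_contra hcon
    simp only [not_exists, not_and, not_frequently] at hcon
    have h1 := (eventually_all_finset 𝒮).2 hcon
    have h2 : ∀ᶠ δ in 𝓝[>] (0:ℝ), δ ∈ Ioo (0:ℝ) (1 / 2) := Ioo_mem_nhdsGT (by norm_num)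
    obtain ⟨δ, h1, h2⟩ := (h1.and h2).exists
    have h3 : (1 - δ) • y ∈ Sh (k + 1) := by
      have : ‖(1 - δ) • y‖ = 1 - δ := by
        rw [norm_smul, hy1, mul_one, Real.norm_of_nonneg (by linarith [h2.2])]
      exact ⟨by rw [this]; linarith [h2.2], by rw [this]; linarith [h2.1]⟩
    rw [hX] at h3
    obtain ⟨s, hs, h4⟩ := mem_iUnion₂.1 h3
    exact h1 s hs h4
  have hys : y ∈ convexHull ℝ (s : Set (Fin (k + 1) → ℝ)) := by
    have ht : Tendsto (fun δ : ℝ => (1 - δ) • y) (𝓝[>] 0) (𝓝 y) := by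
      have : Continuous fun δ : ℝ => (1 - δ) • y := by fun_prop
      have h := this.tendsto 0
      rw [sub_zero, one_smul] at h
      exact h.mono_left nhdsWithin_le_nhds
    exact (s.finite_toSet.isClosed_convexHull ℝ).mem_of_frequently_of_tendsto hfr ht
  obtain ⟨δ, h1, hδ⟩ := (hfr.and_eventually self_mem_nhdsWithin).exists
  have h2 : {v : Fin k → ℝ | (Fin.insertNth i (if b then 1 else -1) v : Fin (k + 1) → ℝ) ∈
      convexHull ℝ (s : Set (Fin (k + 1) → ℝ))} ∈ 𝓝 (Fin.removeNth i y) := by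
    rw [← mem_interior_iff_mem_nhds, mem_interior_iff_notMem_frontier]
    · exact fun h => hgood (mem_iUnion₂.2 ⟨s, hs, h⟩)
    · show (Fin.insertNth i (if b then 1 else -1) (Fin.removeNth i y) : Fin (k + 1) → ℝ) ∈
        convexHull ℝ (s : Set (Fin (k + 1) → ℝ))
      rw [Fin.insertNth_removeNth, ← hi, Function.update_eq_self]; exact hys
  have h3 := ev_mem_of_slice (by cases b <;> simp) hδ (convex_convexHull ℝ _) hi h1 h2
  obtain ⟨ρ, hρ, hb⟩ := Metric.eventually_nhds_iff_ball.1 h3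
  refine ⟨ρ, hρ, aff_of_affine (A s) (fun z hz => hA s hs (hb z hz.2 hz.1.2)) fun v => ?_⟩
  refine ((LinearMap.toContinuousLinearMap (A s).linear).le_opNorm v).trans
    (mul_le_mul_of_nonneg_right ?_ (norm_nonneg _))
  exact Finset.single_le_sum (f := fun s => ‖LinearMap.toContinuousLinearMap (A s).linear‖)
    (fun _ _ => norm_nonneg _) hs

theorem lipschitz_Th {n : ℕ} {t u : ℝ} (h : |t| + |u| ≤ 2) :
    LipschitzWith 2 (Th t u : (Fin n → ℝ) → Fin n → ℝ) := by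
  refine LipschitzWith.of_dist_le_mul fun x y => ?_
  rw [dist_eq_norm, dist_eq_norm]
  exact (norm_Th_sub x y).trans (mul_le_mul_of_nonneg_right h (norm_nonneg _))

theorem Th_sub_pr {n : ℕ} (t u : ℝ) (x : Fin n → ℝ) :
    Th t u x - Th 1 1 x = Th (t - 1) (u - 1) x := by
  simp only [Th, sub_smul]; abel

theorem Th_zero {n : ℕ} (t u : ℝ) : Th t u (0 : Fin n → ℝ) = 0 := by
  simp [Th, cc_of_le_half (x := (0 : Fin n → ℝ)) (by simp)]

theorem Th_mapsTo {a t u : ℝ} (h0 : 0 ≤ u) (h1 : a ≤ u) (h2 : u ≤ t) (h3 : t ≤ 1) :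
    MapsTo (Th t u) (Sh (k + 1)) {x : Fin (k + 1) → ℝ | a ≤ ‖x‖ ∧ ‖x‖ ≤ 1} := by
  intro x hx
  have := norm_Th (h0.trans h2) h0 hx.1 hx.2
  have b1 := hx.1
  have b2 := hx.2
  constructor
  · rw [this]; nlinarith
  · rw [this]; nlinarith

omit [NormedSpace ℝ F] in
theorem lipAt_good {g : (Fin (k + 1) → ℝ) → F} {Λ δ ρ t u : ℝ} {e : ℝ≥0} (hΛ : 0 ≤ Λ)
    (hδ : δ ≤ 1 / 2) (he : Λ * (2 * δ) ≤ e) (hρ : 2 * δ < ρ) (h1 : 1 - δ ≤ u) (h2 : u ≤ t)
    (h3 : t ≤ 1) {x : Fin (k + 1) → ℝ} (hx : x ∈ Sh (k + 1))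
    (hA : Aff g Λ (Sh (k + 1) ∩ ball (Th 1 1 x) ρ)) :
    lipAt (g ∘ Th t u) (Sh (k + 1)) x ≤ 2 * lipAt g (sphere 0 1) (Th 1 1 x) + e := by
  refine le_of_forall_gt_aff two_ne_zero ENNReal.ofNat_ne_top fun c hc => lipAt_le ?_
  have hsum : |t - 1| + |u - 1| ≤ 2 * δ := by
    rw [abs_of_nonpos (by linarith), abs_of_nonpos (by linarith)]; linarith
  have hπ : Tendsto (Th 1 1) (𝓝[Sh (k + 1)] x) (𝓝[sphere 0 1] (Th 1 1 x)) :=
    (continuous_Th 1 1).continuousWithinAt.tendsto_nhdsWithin fun _ hz => pr_mem hz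
  have hL := lipschitz_Th (n := k + 1) (t := 1) (u := 1) (by norm_num)
  have hS : ∀ z ∈ Sh (k + 1), Th 1 1 z ∈ Sh (k + 1) := fun z hz =>
    Th_mapsTo zero_le_one (by norm_num) le_rfl le_rfl hz
  have hin : ∀ z ∈ Sh (k + 1), dist z x < (ρ - 2 * δ) / 2 →
      Th 1 1 z ∈ Sh (k + 1) ∩ ball (Th 1 1 x) ρ ∧ Th t u z ∈ Sh (k + 1) ∩ ball (Th 1 1 x) ρ := by
    intro z hz hzx
    have b1 : dist (Th 1 1 z) (Th 1 1 x) < ρ - 2 * δ := by
      have := hL.dist_le_mul z x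
      push_cast at this
      linarith
    have b2 : dist (Th t u z) (Th 1 1 z) ≤ 2 * δ := by
      have := norm_Th_sub (t := t - 1) (u := u - 1) z 0
      rw [Th_zero, sub_zero, sub_zero] at this
      rw [dist_eq_norm, Th_sub_pr]
      refine this.trans ?_
      calc _ ≤ (|t - 1| + |u - 1|) * 1 := mul_le_mul_of_nonneg_left hz.2 (by positivity)
        _ ≤ 2 * δ := by rw [mul_one]; exact hsum
    refine ⟨⟨hS z hz, mem_ball.2 (by linarith)⟩,
      Th_mapsTo (by linarith) (by linarith) h2 h3 hz, mem_ball.2 ?_⟩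
    linarith [dist_triangle (Th t u z) (Th 1 1 z) (Th 1 1 x)]
  have hx' := hin x hx (by rw [dist_self]; linarith)
  filter_upwards [hπ.eventually (ev_of_lipAt_lt hc), self_mem_nhdsWithin,
    mem_nhdsWithin_of_mem_nhds (ball_mem_nhds x (by linarith : 0 < (ρ - 2 * δ) / 2))]
    with z a1 hz a2
  have hz' := hin z hz a2
  have b1 := hA _ hz'.2 _ hx'.2 _ hz'.1 _ hx'.1
  have b2 : ‖Th t u z - Th t u x - (Th 1 1 z - Th 1 1 x)‖ ≤ 2 * δ * ‖z - x‖ := by
    rw [sub_sub_sub_comm, Th_sub_pr, Th_sub_pr]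
    exact (norm_Th_sub z x).trans (mul_le_mul_of_nonneg_right hsum (norm_nonneg _))
  have b3 : dist (g (Th t u z)) (g (Th t u x)) ≤
      dist (g (Th 1 1 z)) (g (Th 1 1 x)) + e * dist z x := by
    simp only [dist_eq_norm]
    refine b1.trans (add_le_add le_rfl ?_)
    calc _ ≤ Λ * (2 * δ * ‖z - x‖) := mul_le_mul_of_nonneg_left b2 hΛ
      _ = Λ * (2 * δ) * ‖z - x‖ := by ring
      _ ≤ _ := mul_le_mul_of_nonneg_right he (norm_nonneg _)
  have b4 : edist (g (Th t u z)) (g (Th t u x)) ≤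
      edist (g (Th 1 1 z)) (g (Th 1 1 x)) + e * edist z x := by
    simp only [edist_dist]
    refine (ENNReal.ofReal_le_ofReal b3).trans ?_
    rw [ENNReal.ofReal_add dist_nonneg (by positivity), ENNReal.ofReal_mul e.coe_nonneg,
      ENNReal.ofReal_coe_nnreal]
  refine b4.trans ?_
  rw [add_mul, mul_comm 2 c, mul_assoc]
  exact add_le_add (a1.trans (mul_le_mul_right (hL z x) c)) le_rfl

/-- the constant of the estimate on one shell -/
noncomputable def Cf (k : ℕ) (p : ℝ) : ℝ≥0∞ := 2 ^ (p - 1) * 2 ^ p * Cp k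

theorem two_rpow_ne_top (p : ℝ) : (2 : ℝ≥0∞) ^ p ≠ ⊤ :=
  ENNReal.rpow_ne_top_of_ne_zero two_ne_zero ENNReal.ofNat_ne_top

theorem Cf_ne_top (k : ℕ) (p : ℝ) : Cf k p ≠ ⊤ :=
  ENNReal.mul_ne_top (ENNReal.mul_ne_top (two_rpow_ne_top _) (two_rpow_ne_top _)) (Cp_ne_top k)

theorem fine [FiniteDimensional ℝ F] (hS : STM) (hL : LIP) {p : ℝ} (hp : 1 ≤ p)
    {g : (Fin (k + 1) → ℝ) → F} (hg : PLOn g (Sh (k + 1))) {η : ℝ≥0∞} (hη : 0 < η) :
    ∃ δ : ℝ, 0 < δ ∧ δ ≤ 1 / 2 ∧ ∀ t u, 1 - δ ≤ u → u ≤ t → t ≤ 1 →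
      En (k + 1) p (g ∘ Th t u) (Sh (k + 1)) ≤ Cf k p * En k p g (sphere 0 1) + η := by
  obtain ⟨Λ, hΛ, hnull⟩ := exists_good hS hg
  obtain ⟨L, hgL⟩ := hL (isCompact_Sh (k + 1)) (locCone_shell _ _) hg
  have hp0 : 0 ≤ p := by linarith
  have hη2 : η / 2 ≠ 0 := (ENNReal.half_pos hη.ne').ne'
  set U : ℕ → Set (Fin (k + 1) → ℝ) :=
    fun m => {y | ∃ ρ > 1 / ((m:ℝ) + 1), Aff g Λ (Sh (k + 1) ∩ ball y ρ)} with hU
  have hUo : ∀ m, IsOpen (U m) := by
    intro m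
    refine isOpen_iff_mem_nhds.2 ?_
    rintro y ⟨ρ, hρ, hA⟩
    filter_upwards [ball_mem_nhds y (sub_pos.2 hρ)] with z hz
    rw [mem_ball] at hz
    have hsub : Sh (k + 1) ∩ ball z (ρ - dist z y) ⊆ Sh (k + 1) ∩ ball y ρ :=
      inter_subset_inter_right _ (ball_subset_ball' (by linarith))
    exact ⟨ρ - dist z y, by linarith,
      fun a ha b hb a' ha' b' hb' => hA a (hsub ha) b (hsub hb) a' (hsub ha') b' (hsub hb')⟩
  have hGm : ∀ m, MeasurableSet (Th 1 1 ⁻¹' U m) := fun m =>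
    ((hUo m).preimage (continuous_Th 1 1)).measurableSet
  have hSm : MeasurableSet (Sh (k + 1)) := (isClosed_Sh _).measurableSet
  have hSf : volume (Sh (k + 1)) ≠ ⊤ := (isCompact_Sh _).measure_lt_top.ne
  have hlim : Tendsto (fun m => volume (Sh (k + 1) \ Th 1 1 ⁻¹' U m)) atTop (𝓝 0) := by
    have h1 := tendsto_measure_iInter_atTop (μ := volume)
      (s := fun m => Sh (k + 1) \ Th 1 1 ⁻¹' U m)
      (fun m => (hSm.diff (hGm m)).nullMeasurableSet) ?_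
      ⟨0, ne_top_of_le_ne_top hSf (measure_mono sdiff_subset)⟩
    · rwa [measure_mono_null ?_ hnull] at h1
      intro x hx
      rw [mem_iInter] at hx
      refine ⟨(hx 0).1, ?_⟩
      rintro ⟨ρ, hρ, hA⟩
      obtain ⟨m, hm⟩ := exists_nat_one_div_lt hρ
      exact (hx m).2 ⟨ρ, hm, hA⟩
    · intro m m' hm
      refine sdiff_subset_sdiff_right ?_
      rintro x ⟨ρ, hρ, hA⟩
      exact ⟨ρ, (Nat.one_div_le_one_div hm).trans_lt hρ, hA⟩
  have hLt : ((L * 2 : ℝ≥0) : ℝ≥0∞) ^ p ≠ ⊤ :=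
    ENNReal.rpow_ne_top_of_nonneg hp0 ENNReal.coe_ne_top
  obtain ⟨m, hm⟩ : ∃ m, ((L * 2 : ℝ≥0) : ℝ≥0∞) ^ p * volume (Sh (k + 1) \ Th 1 1 ⁻¹' U m) ≤
      η / 2 := by
    have := ENNReal.Tendsto.const_mul hlim (Or.inr hLt)
    rw [mul_zero] at this
    exact (this.eventually (ge_mem_nhds (pos_iff_ne_zero.2 hη2))).exists
  obtain ⟨e₀, he₀, he₀'⟩ := ENNReal.exists_nnreal_pos_mul_lt
    (ENNReal.mul_ne_top (two_rpow_ne_top (p - 1)) hSf) hη2
  set e : ℝ≥0 := min e₀ 1 with he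
  have he0 : (0:ℝ) < e := by exact_mod_cast lt_min he₀ one_pos
  have hep : (e : ℝ≥0∞) ^ p ≤ e₀ := by
    refine (ENNReal.rpow_le_rpow_of_exponent_ge (by exact_mod_cast min_le_right _ _) hp).trans ?_
    rw [ENNReal.rpow_one]; exact_mod_cast min_le_left _ _
  have hm0 : (0:ℝ) < 1 / ((m:ℝ) + 1) := Nat.one_div_pos_of_nat
  refine ⟨min (1 / 2) (min (1 / ((m:ℝ) + 1) / 2) (e / (2 * (Λ + 1)))), by positivity,
    min_le_left _ _, fun t u h1 h2 h3 => ?_⟩
  set δ := min (1 / 2) (min (1 / ((m:ℝ) + 1) / 2) (e / (2 * (Λ + 1)))) with hδ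
  have d0 : 0 < δ := by positivity
  have d1 : δ ≤ 1 / 2 := min_le_left _ _
  have d2 : δ ≤ 1 / ((m:ℝ) + 1) / 2 := (min_le_right _ _).trans (min_le_left _ _)
  have d3 : Λ * (2 * δ) ≤ e := by
    have : δ ≤ e / (2 * (Λ + 1)) := (min_le_right _ _).trans (min_le_right _ _)
    rw [le_div_iff₀ (by positivity)] at this
    nlinarith
  have hF : AEMeasurable (fun y => lipAt g (sphere 0 1) y ^ p)
      ((μH[(k:ℝ)]).restrict (sphere (0 : Fin (k + 1) → ℝ) 1)) :=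
    (aemeasurable_lipAt isClosed_sphere.measurableSet (hg.1.mono fun y hy => by
      have : ‖y‖ = 1 := mem_sphere_zero_iff_norm.1 hy
      exact ⟨by rw [this]; norm_num, this.le⟩) _).pow_const p
  have hgood : ∫⁻ x in Sh (k + 1) ∩ Th 1 1 ⁻¹' U m, lipAt (g ∘ Th t u) (Sh (k + 1)) x ^ p ≤
      Cf k p * En k p g (sphere 0 1) + η / 2 := by
    refine (setLIntegral_mono' (hSm.inter (hGm m)) (g := fun x => 2 ^ (p - 1) * 2 ^ p *
      lipAt g (sphere 0 1) (Th 1 1 x) ^ p + 2 ^ (p - 1) * e₀) ?_).trans ?_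
    · rintro x ⟨hx, ρ, hρ, hA⟩
      refine (ENNReal.rpow_le_rpow (lipAt_good hΛ d1 d3 (by linarith) h1 h2 h3 hx hA) hp0).trans
        ((ENNReal.rpow_add_le_mul_rpow_add_rpow _ _ hp).trans ?_)
      rw [ENNReal.mul_rpow_of_nonneg _ _ hp0, mul_add, mul_assoc]
      exact add_le_add le_rfl (mul_le_mul_right hep _)
    · refine (lintegral_mono_set inter_subset_left).trans ?_
      rw [lintegral_add_right _ measurable_const, lintegral_const_mul' _ _
        (ENNReal.mul_ne_top (two_rpow_ne_top _) (two_rpow_ne_top _)), setLIntegral_const]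
      refine add_le_add ?_ ?_
      · rw [Cf, mul_assoc _ (Cp k)]
        exact mul_le_mul_right (lintegral_push hF) _
      · rw [mul_comm _ (e₀ : ℝ≥0∞), mul_assoc]; exact he₀'.le
  have hbad : ∫⁻ x in Sh (k + 1) \ Th 1 1 ⁻¹' U m, lipAt (g ∘ Th t u) (Sh (k + 1)) x ^ p ≤
      η / 2 := by
    have hlip : LipschitzOnWith (L * 2) (g ∘ Th t u) (Sh (k + 1)) :=
      hgL.comp (lipschitz_Th (by
        rw [abs_of_nonneg (by linarith), abs_of_nonneg (by linarith)]; linarith)).lipschitzOnWith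
        (Th_mapsTo (by linarith) (by linarith) h2 h3)
    refine (setLIntegral_mono' (hSm.diff (hGm m)) (g := fun _ => ((L * 2 : ℝ≥0) : ℝ≥0∞) ^ p)
      fun x hx => ENNReal.rpow_le_rpow (lipAt_le_of_lip hlip hx.1) hp0).trans ?_
    rw [setLIntegral_const]; exact hm
  rw [En, hvol, ← lintegral_inter_add_sdiff _ _ (hGm m)]
  refine (add_le_add hgood hbad).trans ?_
  rw [add_assoc, ENNReal.add_halves]

end P073.Cone
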