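import Vale.Agent.P073Z.Sk1

/-!
# The PL radial maps of a cubical shell
-/

open Set Metric Topology Filter

namespace P073.Cone

/-- clamp `v` to the interval `[-c, c]` -/
def cl (v c : ℝ) : ℝ := max (-c) (min v c)

theorem abs_cl_le (v : ℝ) {c : ℝ} (hc : 0 ≤ c) : |cl v c| ≤ c :=
  abs_le.2 ⟨le_max_left _ _, max_le (by linarith) (min_le_right _ _)⟩

theorem cl_of_abs_le {v c : ℝ} (h : |v| ≤ c) : cl v c = v := by
  rw [abs_le] at h
  unfold cl
  rw [min_eq_left h.2, max_eq_right h.1]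

theorem cl_of_le {v c : ℝ} (hc : 0 ≤ c) (h : c ≤ v) : cl v c = c := by
  unfold cl
  rw [min_eq_right h, max_eq_right (by linarith)]

theorem cl_of_ge {v c : ℝ} (hc : 0 ≤ c) (h : v ≤ -c) : cl v c = -c := by
  unfold cl
  rw [min_eq_left (by linarith), max_eq_left h]

theorem cl_mono {v w : ℝ} (c : ℝ) (h : v ≤ w) : cl v c ≤ cl w c :=
  max_le_max le_rfl (min_le_min h le_rfl)

theorem abs_cl_sub (v c v' c' : ℝ) : |cl v c - cl v' c'| ≤ max |v - v'| |c - c'| := by
  refine (abs_max_sub_max_le_max _ _ _ _).trans (max_le ?_ (abs_min_sub_min_le_max _ _ _ _))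
  rw [neg_sub_neg, abs_sub_comm]
  exact le_max_right _ _

theorem continuous_cl (c : ℝ) : Continuous fun v => cl v c := by
  unfold cl; fun_prop

variable {n : ℕ}

theorem conicalOn_norm : ConicalOn (fun x : Fin n → ℝ => ‖x‖) univ := by
  have key : ∀ s : Finset (Fin n),
      Continuous (fun x : Fin n → ℝ => ((s.sup fun i => ‖x i‖₊ : NNReal) : ℝ)) ∧
      ConicalOn (fun x : Fin n → ℝ => ((s.sup fun i => ‖x i‖₊ : NNReal) : ℝ)) univ := by
    intro s
    induction s using Finset.induction_on with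
    | empty =>
      simp only [Finset.sup_empty, bot_eq_zero', NNReal.coe_zero]
      exact ⟨continuous_const, conicalOn_const _ (IsOpen.conicalSet isOpen_univ)⟩
    | insert a s _ ih =>
      have e : (fun x : Fin n → ℝ => (((insert a s).sup fun i => ‖x i‖₊ : NNReal) : ℝ)) =
          fun x => max (max (x a) (-x a)) ((s.sup fun i => ‖x i‖₊ : NNReal) : ℝ) := by
        funext x
        rw [Finset.sup_insert, NNReal.coe_max, coe_nnnorm, Real.norm_eq_abs, abs_eq_max_neg]
      rw [e]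
      have h1 : ConicalOn (fun x : Fin n → ℝ => x a) univ :=
        conicalOn_linear (LinearMap.proj a : (Fin n → ℝ) →ₗ[ℝ] ℝ) (IsOpen.conicalSet isOpen_univ)
      have c1 : Continuous (fun x : Fin n → ℝ => x a) := continuous_apply a
      exact ⟨(c1.max c1.neg).max ih.1, (h1.rmax h1.neg c1.continuousOn c1.neg.continuousOn).rmax
        ih.2 (c1.max c1.neg).continuousOn ih.1.continuousOn⟩
  exact (key Finset.univ).2

/-- the correction term -/
noncomputable def cc (x : Fin n → ℝ) : Fin n → ℝ := fun m => cl (x m) (max (1 - ‖x‖) 0)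

theorem cc_of_one_le {x : Fin n → ℝ} (h : 1 ≤ ‖x‖) : cc x = 0 := by
  funext m
  have : max (1 - ‖x‖) 0 = 0 := max_eq_right (by linarith)
  have h2 := abs_cl_le (x m) (le_refl (0:ℝ))
  simp only [cc, this, Pi.zero_apply]
  exact abs_nonpos_iff.1 h2

theorem abs_le_norm (x : Fin n → ℝ) (m : Fin n) : |x m| ≤ ‖x‖ := by
  rw [← Real.norm_eq_abs]; exact norm_le_pi_norm x m

theorem cc_of_le_half {x : Fin n → ℝ} (h : ‖x‖ ≤ 1 / 2) : cc x = x := by
  funext m
  exact cl_of_abs_le ((abs_le_norm x m).trans ((le_max_left _ _).trans' (by linarith)))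

theorem norm_cc_sub (x y : Fin n → ℝ) : ‖cc x - cc y‖ ≤ ‖x - y‖ := by
  refine (pi_norm_le_iff_of_nonneg (norm_nonneg _)).2 fun m => ?_
  rw [Real.norm_eq_abs]
  refine (abs_cl_sub _ _ _ _).trans (max_le (abs_le_norm (x - y) m) ?_)
  refine (abs_max_sub_max_le_max _ _ _ _).trans (max_le ?_ (by simp))
  rw [show 1 - ‖x‖ - (1 - ‖y‖) = ‖y‖ - ‖x‖ by ring, abs_sub_comm]
  exact abs_norm_sub_norm_le x y

theorem norm_cc_le (x : Fin n → ℝ) : ‖cc x‖ ≤ ‖x‖ := by
  have := norm_cc_sub x 0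
  rwa [cc_of_le_half (x := 0) (by simp), sub_zero, sub_zero] at this

theorem continuous_cc : Continuous (cc : (Fin n → ℝ) → Fin n → ℝ) := by
  unfold cc cl; fun_prop

theorem conicalOn_cc : ConicalOn (cc : (Fin n → ℝ) → Fin n → ℝ) univ := by
  have hu : ConicalSet (univ : Set (Fin n → ℝ)) := IsOpen.conicalSet isOpen_univ
  have h0 : ConicalOn (fun x : Fin n → ℝ => max (1 - ‖x‖) 0) univ :=
    ((conicalOn_const 1 hu).sub conicalOn_norm).rmax (conicalOn_const 0 hu) (by fun_prop)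
      (by fun_prop)
  intro x hx
  refine conicalWithinAt_pi (hu x hx) fun m => ?_
  have h1 : ConicalOn (fun x : Fin n → ℝ => x m) univ :=
    conicalOn_linear (LinearMap.proj m : (Fin n → ℝ) →ₗ[ℝ] ℝ) hu
  exact (h0.neg.rmax (h1.rmin h0 (by fun_prop) (by fun_prop)) (by fun_prop) (by fun_prop)) x hx

/-- the map of the shell onto a thin shell -/
noncomputable def Th (t u : ℝ) (x : Fin n → ℝ) : Fin n → ℝ := t • x + u • cc x

theorem Th_apply {t u : ℝ} {x : Fin n → ℝ} (h : ‖x‖ ≤ 1) (m : Fin n) :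
    Th t u x m = t * x m + u * cl (x m) (1 - ‖x‖) := by
  simp only [Th, cc, Pi.add_apply, Pi.smul_apply, smul_eq_mul]
  rw [max_eq_left (by linarith)]

theorem norm_Th_sub {t u : ℝ} (x y : Fin n → ℝ) :
    ‖Th t u x - Th t u y‖ ≤ (|t| + |u|) * ‖x - y‖ := by
  have : Th t u x - Th t u y = t • (x - y) + u • (cc x - cc y) := by
    simp only [Th, smul_sub]; abel
  rw [this, add_mul]
  refine (norm_add_le _ _).trans (add_le_add ?_ ?_)
  · rw [norm_smul, Real.norm_eq_abs]
  · rw [norm_smul, Real.norm_eq_abs]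
    exact mul_le_mul_of_nonneg_left (norm_cc_sub x y) (abs_nonneg _)

theorem continuous_Th (t u : ℝ) : Continuous (Th t u : (Fin n → ℝ) → Fin n → ℝ) :=
  (continuous_id.const_smul t).add (continuous_cc.const_smul u)

theorem psi_lt {t u c v w : ℝ} (ht : 0 < t) (hu : 0 ≤ u) (h : v < w) :
    t * v + u * cl v c < t * w + u * cl w c :=
  add_lt_add_of_lt_of_le (mul_lt_mul_of_pos_left h ht) (mul_le_mul_of_nonneg_left (cl_mono c h.le) hu)

theorem exists_abs_eq_norm {k : ℕ} (x : Fin (k + 1) → ℝ) : ∃ m, |x m| = ‖x‖ := by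
  obtain ⟨m, -, hm⟩ := Finset.exists_max_image Finset.univ (fun m => |x m|) Finset.univ_nonempty
  refine ⟨m, le_antisymm (abs_le_norm x m) ?_⟩
  exact (pi_norm_le_iff_of_nonneg (abs_nonneg _)).2 fun i => hm i (Finset.mem_univ i)

theorem norm_Th {k : ℕ} {t u : ℝ} (ht : 0 ≤ t) (hu : 0 ≤ u) {x : Fin (k + 1) → ℝ}
    (h1 : 1 / 2 ≤ ‖x‖) (h2 : ‖x‖ ≤ 1) : ‖Th t u x‖ = t * ‖x‖ + u * (1 - ‖x‖) := by
  have hc : 0 ≤ 1 - ‖x‖ := by linarith
  apply le_antisymm
  · refine (pi_norm_le_iff_of_nonneg (by positivity)).2 fun m => ?_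
    rw [Th_apply h2, Real.norm_eq_abs]
    refine (abs_add_le _ _).trans (add_le_add ?_ ?_)
    · rw [abs_mul, abs_of_nonneg ht]; exact mul_le_mul_of_nonneg_left (abs_le_norm x m) ht
    · rw [abs_mul, abs_of_nonneg hu]; exact mul_le_mul_of_nonneg_left (abs_cl_le _ hc) hu
  · obtain ⟨m, hm⟩ := exists_abs_eq_norm x
    refine le_trans ?_ (abs_le_norm _ m)
    rw [Th_apply h2]
    rcases abs_eq (norm_nonneg x) |>.1 hm with h | h
    · rw [h, cl_of_le hc (by linarith)]; exact le_abs_self _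
    · rw [h, cl_of_ge hc (by linarith)]
      refine le_trans (le_of_eq ?_) (neg_le_abs _)
      ring

theorem Th_inj {t u : ℝ} (ht : 0 < t) (hu : 0 ≤ u) {x y : Fin n → ℝ} (hx : ‖x‖ ≤ 1)
    (hxy : ‖x‖ = ‖y‖) (h : Th t u x = Th t u y) : x = y := by
  funext m
  have h1 := congrFun h m
  rw [Th_apply hx, Th_apply (hxy ▸ hx), ← hxy] at h1
  rcases lt_trichotomy (x m) (y m) with h2 | h2 | h2
  · exact absurd h1 (psi_lt ht hu h2).ne
  · exact h2
  · exact absurd h1 (psi_lt ht hu h2).ne'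

theorem Th_surj {k : ℕ} {t u r : ℝ} (ht : 0 < t) (hu : 0 ≤ u) (h1 : 1 / 2 ≤ r) (h2 : r ≤ 1)
    {y : Fin (k + 1) → ℝ} (hy : ‖y‖ = t * r + u * (1 - r)) :
    ∃ x : Fin (k + 1) → ℝ, ‖x‖ = r ∧ Th t u x = y := by
  have hc : 0 ≤ 1 - r := by linarith
  have hr : cl r (1 - r) = 1 - r := cl_of_le hc (by linarith)
  have hr' : cl (-r) (1 - r) = -(1 - r) := cl_of_ge hc (by linarith)
  have key : ∀ m, ∃ v ∈ Icc (-r) r, t * v + u * cl v (1 - r) = y m := by
    intro m
    have hcont : Continuous fun v => t * v + u * cl v (1 - r) :=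
      (continuous_const.mul continuous_id).add (continuous_const.mul (continuous_cl _))
    refine intermediate_value_Icc (by linarith) hcont.continuousOn ?_
    have := abs_le.1 ((abs_le_norm y m).trans hy.le)
    constructor
    · show t * (-r) + u * cl (-r) (1 - r) ≤ y m
      rw [hr']; linarith [this.1]
    · show y m ≤ t * r + u * cl r (1 - r)
      rw [hr]; exact this.2
  choose x hx hxy using key
  have hn : ‖x‖ = r := by
    apply le_antisymm
    · exact (pi_norm_le_iff_of_nonneg (by linarith)).2 fun m => abs_le.2 (hx m)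
    · obtain ⟨m, hm⟩ := exists_abs_eq_norm y
      refine le_trans ?_ (abs_le_norm x m)
      by_contra hlt
      have hlt' := abs_lt.1 (not_le.1 hlt)
      have a1 := psi_lt (c := 1 - r) ht hu hlt'.1
      have a2 := psi_lt (c := 1 - r) ht hu hlt'.2
      rw [hxy m, hr'] at a1
      rw [hxy m, hr] at a2
      have : |y m| < ‖y‖ := abs_lt.2 ⟨by rw [hy]; linarith, by rw [hy]; linarith⟩
      exact this.ne hm
  refine ⟨x, hn, funext fun m => ?_⟩
  rw [Th_apply (hn ▸ h2), hn, hxy]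

end P073.Cone
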