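import Vale.Agent.P073Z.Cone.Map

/-!
# The radial reparametrisation of the cube
-/

open Set Metric Topology Filter

namespace P073.Cone

/-- the radii of the image shells -/
noncomputable def tt (u : ℕ → ℝ) : ℕ → ℝ
  | 0 => 1
  | j + 1 => (tt u j + u j) / 2

/-- admissible sequences -/
structure Adm (u : ℕ → ℝ) : Prop where
  nonneg : ∀ j, 0 ≤ u j
  anti : Antitone u
  lt_one : u 0 < 1
  lim : Tendsto u atTop (𝓝 0)

namespace Adm

variable {u : ℕ → ℝ}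

theorem lt_tt (hu : Adm u) (j : ℕ) : u j < tt u j := by
  induction j with
  | zero => exact hu.lt_one
  | succ j ih =>
    have := hu.anti (Nat.le_succ j)
    simp only [tt]; linarith

theorem tt_pos (hu : Adm u) (j : ℕ) : 0 < tt u j := (hu.nonneg j).trans_lt (hu.lt_tt j)

theorem tt_anti (hu : Adm u) : Antitone (tt u) :=
  antitone_nat_of_succ_le fun j => by
    have := hu.lt_tt j
    simp only [tt]; linarith

theorem tt_le_one (hu : Adm u) (j : ℕ) : tt u j ≤ 1 := hu.tt_anti (Nat.zero_le j)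

theorem tt_lim (hu : Adm u) : Tendsto (tt u) atTop (𝓝 0) := by
  have hb : BddBelow (range (tt u)) := ⟨0, by rintro _ ⟨j, rfl⟩; exact (hu.tt_pos j).le⟩
  have h1 := tendsto_atTop_ciInf hu.tt_anti hb
  have h2 := (tendsto_add_atTop_iff_nat 1).2 h1
  have h3 : Tendsto (fun j => tt u (j + 1)) atTop (𝓝 (((⨅ j, tt u j) + 0) / 2)) :=
    (h1.add hu.lim).div_const 2
  have h4 := tendsto_nhds_unique h2 h3
  have h5 : (⨅ j, tt u j) = 0 := by linarith
  rwa [h5] at h1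

end Adm

theorem tt_sum (u : ℕ → ℝ) (j : ℕ) :
    1 + ∑ i ∈ Finset.range j, u i * 2 ^ i = tt u j * 2 ^ j := by
  induction j with
  | zero => simp [tt]
  | succ j ih =>
    rw [Finset.sum_range_succ, ← add_assoc, ih]
    simp only [tt]; ring

variable {n : ℕ}

/-- the finite stages -/
noncomputable def OmN (u : ℕ → ℝ) (N : ℕ) (x : Fin n → ℝ) : Fin n → ℝ :=
  x + ∑ j ∈ Finset.range N, u j • cc ((2:ℝ) ^ j • x)

/-- the reparametrisation -/
noncomputable def Om (u : ℕ → ℝ) (x : Fin n → ℝ) : Fin n → ℝ :=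
  x + ∑' j, u j • cc ((2:ℝ) ^ j • x)

theorem norm_two_pow_smul (j : ℕ) (x : Fin n → ℝ) : ‖(2:ℝ) ^ j • x‖ = 2 ^ j * ‖x‖ := by
  rw [norm_smul, Real.norm_of_nonneg (by positivity)]

theorem half_pow_mul (j : ℕ) : (2:ℝ) ^ j * (1 / 2) ^ j = 1 := by
  rw [← mul_pow]; norm_num

theorem OmN_pl (u : ℕ → ℝ) (N : ℕ) : Continuous (OmN u N : (Fin n → ℝ) → Fin n → ℝ) ∧
    ConicalOn (OmN u N : (Fin n → ℝ) → Fin n → ℝ) univ := by
  have hu : ConicalSet (univ : Set (Fin n → ℝ)) := IsOpen.conicalSet isOpen_univ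
  induction N with
  | zero =>
    have : (OmN u 0 : (Fin n → ℝ) → Fin n → ℝ) = fun x => x := by funext x; simp [OmN]
    rw [this]; exact ⟨continuous_id, conicalOn_id hu⟩
  | succ N ih =>
    have : (OmN u (N + 1) : (Fin n → ℝ) → Fin n → ℝ) =
        fun x => OmN u N x + u N • cc ((2:ℝ) ^ N • x) := by
      funext x; simp only [OmN, Finset.sum_range_succ, add_assoc]
    rw [this]
    have c1 : Continuous fun x : Fin n → ℝ => (2:ℝ) ^ N • x := by fun_prop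
    have c2 : Continuous fun x : Fin n → ℝ => u N • cc ((2:ℝ) ^ N • x) :=
      (continuous_cc.comp c1).const_smul (u N)
    refine ⟨ih.1.add c2, ih.2.add (ConicalOn.const_smul _ ?_)⟩
    exact conicalOn_cc.comp ((conicalOn_id hu).const_smul _) (mapsTo_univ _ _) c1.continuousOn

theorem Om_eq_OmN (u : ℕ → ℝ) {N : ℕ} {x : Fin n → ℝ} (h : (1 / 2) ^ N ≤ ‖x‖) :
    Om u x = OmN u N x := by
  unfold Om OmN
  rw [tsum_eq_sum (s := Finset.range N)]
  intro j hj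
  rw [Finset.mem_range, not_lt] at hj
  rw [cc_of_one_le, smul_zero]
  rw [norm_two_pow_smul]
  calc (1:ℝ) = 2 ^ N * (1 / 2) ^ N := (half_pow_mul N).symm
    _ ≤ 2 ^ j * ‖x‖ := mul_le_mul (pow_le_pow_right₀ one_le_two hj) h (by positivity)
        (by positivity)

theorem Om_eq_OmN_of_zero {u : ℕ → ℝ} {N : ℕ} (h : ∀ j, N ≤ j → u j = 0) (x : Fin n → ℝ) :
    Om u x = OmN u N x := by
  unfold Om OmN
  rw [tsum_eq_sum (s := Finset.range N)]
  intro j hj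
  rw [Finset.mem_range, not_lt] at hj
  rw [h j hj, zero_smul]

theorem Om_zero (u : ℕ → ℝ) : Om u (0 : Fin n → ℝ) = 0 := by
  have : cc (0 : Fin n → ℝ) = 0 := cc_of_le_half (by simp)
  simp [Om, this]

theorem Om_of_one_le (u : ℕ → ℝ) {x : Fin n → ℝ} (h : 1 ≤ ‖x‖) : Om u x = x := by
  rw [Om_eq_OmN u (N := 0) (by simpa using h)]
  simp [OmN]

theorem Om_eq_Th (u : ℕ → ℝ) {j : ℕ} {x : Fin n → ℝ} (h1 : (1 / 2) ^ (j + 1) ≤ ‖x‖)
    (h2 : ‖x‖ ≤ (1 / 2) ^ j) : Om u x = Th (tt u j) (u j) ((2:ℝ) ^ j • x) := by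
  rw [Om_eq_OmN u h1]
  unfold OmN Th
  rw [Finset.sum_range_succ, ← add_assoc, smul_smul, ← tt_sum, add_smul, one_smul, Finset.sum_smul]
  congr 2
  refine Finset.sum_congr rfl fun i hi => ?_
  rw [cc_of_le_half, smul_smul]
  rw [norm_two_pow_smul]
  have hi' : i + 1 ≤ j := Finset.mem_range.1 hi
  have h3 : ‖x‖ ≤ (1 / 2) ^ (i + 1) :=
    h2.trans (pow_le_pow_of_le_one (by norm_num) (by norm_num) hi')
  calc 2 ^ i * ‖x‖ ≤ 2 ^ i * (1 / 2) ^ (i + 1) := mul_le_mul_of_nonneg_left h3 (by positivity)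
    _ = 1 / 2 := by rw [pow_succ, ← mul_assoc, half_pow_mul, one_mul]

theorem scaled_mem {j : ℕ} {x : Fin n → ℝ} (h1 : (1 / 2) ^ (j + 1) ≤ ‖x‖)
    (h2 : ‖x‖ ≤ (1 / 2) ^ j) : 1 / 2 ≤ ‖(2:ℝ) ^ j • x‖ ∧ ‖(2:ℝ) ^ j • x‖ ≤ 1 := by
  rw [norm_two_pow_smul]
  constructor
  · calc (1:ℝ) / 2 = 2 ^ j * (1 / 2) ^ (j + 1) := by
          rw [pow_succ, ← mul_assoc, half_pow_mul, one_mul]
      _ ≤ _ := mul_le_mul_of_nonneg_left h1 (by positivity)
  · calc _ ≤ 2 ^ j * (1 / 2 : ℝ) ^ j := mul_le_mul_of_nonneg_left h2 (by positivity)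
      _ = 1 := half_pow_mul j

theorem exists_shell {x : Fin n → ℝ} (h0 : x ≠ 0) (h1 : ‖x‖ ≤ 1) :
    ∃ j : ℕ, (1 / 2) ^ (j + 1) < ‖x‖ ∧ ‖x‖ ≤ (1 / 2) ^ j :=
  exists_nat_pow_near_of_lt_one (norm_pos_iff.2 h0) h1 (by norm_num) (by norm_num)

variable {k : ℕ} {u : ℕ → ℝ}

theorem norm_Om (hu : Adm u) {j : ℕ} {x : Fin (k + 1) → ℝ} (h1 : (1 / 2) ^ (j + 1) ≤ ‖x‖)
    (h2 : ‖x‖ ≤ (1 / 2) ^ j) :
    ‖Om u x‖ = u j + (tt u j - u j) * (2 ^ j * ‖x‖) := by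
  obtain ⟨a1, a2⟩ := scaled_mem h1 h2
  rw [Om_eq_Th u h1 h2, norm_Th (hu.tt_pos j).le (hu.nonneg j) a1 a2, norm_two_pow_smul]
  ring

theorem norm_Om_le (hu : Adm u) {j : ℕ} {x : Fin (k + 1) → ℝ} (h : ‖x‖ ≤ (1 / 2) ^ j) :
    ‖Om u x‖ ≤ tt u j := by
  by_cases h0 : x = 0
  · rw [h0, Om_zero, norm_zero]; exact (hu.tt_pos j).le
  obtain ⟨i, h1, h2⟩ := exists_shell h0 (h.trans (pow_le_one₀ (by norm_num) (by norm_num)))
  have hij : j ≤ i := by
    by_contra hlt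
    have : ((1:ℝ) / 2) ^ j ≤ (1 / 2) ^ (i + 1) :=
      pow_le_pow_of_le_one (by norm_num) (by norm_num) (not_le.1 hlt)
    linarith
  refine le_trans ?_ (hu.tt_anti hij)
  have a2 := (scaled_mem h1.le h2).2
  rw [norm_two_pow_smul] at a2
  rw [norm_Om hu h1.le h2]
  nlinarith [hu.lt_tt i]

theorem norm_Om_lt (hu : Adm u) {x y : Fin (k + 1) → ℝ} (hy : ‖y‖ ≤ 1) (hxy : ‖x‖ < ‖y‖) :
    ‖Om u x‖ < ‖Om u y‖ := by
  have hy0 : y ≠ 0 := norm_pos_iff.1 ((norm_nonneg x).trans_lt hxy)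
  obtain ⟨j, h1, h2⟩ := exists_shell hy0 hy
  have hd : 0 < tt u j - u j := sub_pos.2 (hu.lt_tt j)
  rw [norm_Om hu h1.le h2]
  rcases le_or_gt ‖x‖ ((1 / 2) ^ (j + 1)) with h | h
  · refine (norm_Om_le hu h).trans_lt ?_
    have h3 : (1:ℝ) / 2 < 2 ^ j * ‖y‖ := by
      calc (1:ℝ) / 2 = 2 ^ j * (1 / 2) ^ (j + 1) := by
            rw [pow_succ, ← mul_assoc, half_pow_mul, one_mul]
        _ < _ := mul_lt_mul_of_pos_left h1 (by positivity)
    simp only [tt]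
    nlinarith
  · rw [norm_Om hu h.le (hxy.le.trans h2)]
    have : 2 ^ j * ‖x‖ < 2 ^ j * ‖y‖ := mul_lt_mul_of_pos_left hxy (by positivity)
    nlinarith

theorem Om_injOn (hu : Adm u) : InjOn (Om u) (closedBall (0 : Fin (k + 1) → ℝ) 1) := by
  intro x hx y hy hxy
  rw [mem_closedBall_zero_iff] at hx hy
  have hn : ‖x‖ = ‖y‖ := by
    rcases lt_trichotomy ‖x‖ ‖y‖ with h | h | h
    · exact absurd (congrArg norm hxy) (norm_Om_lt hu hy h).ne
    · exact h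
    · exact absurd (congrArg norm hxy) (norm_Om_lt hu hx h).ne'
  by_cases h0 : x = 0
  · rw [h0, norm_zero] at hn
    rw [h0, norm_eq_zero.1 hn.symm]
  obtain ⟨j, h1, h2⟩ := exists_shell h0 hx
  rw [Om_eq_Th u h1.le h2, Om_eq_Th u (hn ▸ h1.le) (hn ▸ h2)] at hxy
  have := Th_inj (hu.tt_pos j) (hu.nonneg j) (scaled_mem h1.le h2).2
    (by rw [norm_two_pow_smul, norm_two_pow_smul, hn]) hxy
  exact smul_right_injective _ (by positivity : (2:ℝ) ^ j ≠ 0) this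

theorem Om_mapsTo (hu : Adm u) :
    MapsTo (Om u) (closedBall (0 : Fin (k + 1) → ℝ) 1) (closedBall 0 1) := fun x hx => by
  rw [mem_closedBall_zero_iff] at hx ⊢
  exact norm_Om_le hu (j := 0) (by simpa using hx)

theorem Om_image (hu : Adm u) :
    Om u '' closedBall (0 : Fin (k + 1) → ℝ) 1 = closedBall 0 1 := by
  refine (Om_mapsTo hu).image_subset.antisymm fun y hy => ?_
  by_cases h0 : y = 0
  · exact ⟨0, mem_closedBall_self zero_le_one, by rw [Om_zero, h0]⟩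
  rw [mem_closedBall_zero_iff] at hy
  have hex : ∃ j, tt u (j + 1) < ‖y‖ := by
    obtain ⟨j, hj⟩ := (((tendsto_add_atTop_iff_nat 1).2 hu.tt_lim).eventually
      (gt_mem_nhds (norm_pos_iff.2 h0))).exists
    exact ⟨j, hj⟩
  classical
  obtain ⟨j, hj1, hj2⟩ : ∃ j, tt u (j + 1) < ‖y‖ ∧ ‖y‖ ≤ tt u j := by
    refine ⟨Nat.find hex, Nat.find_spec hex, ?_⟩
    rcases h : Nat.find hex with _ | i
    · exact hy
    · exact not_lt.1 (Nat.find_min hex (m := i) (by omega))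
  have hd : 0 < tt u j - u j := sub_pos.2 (hu.lt_tt j)
  simp only [tt] at hj1
  obtain ⟨x, hx, hxy⟩ := Th_surj (r := (‖y‖ - u j) / (tt u j - u j)) (y := y) (hu.tt_pos j)
    (hu.nonneg j) (by rw [le_div_iff₀ hd]; linarith) (by rw [div_le_one hd]; linarith)
    (by field_simp; ring)
  have b1 : 1 / 2 ≤ ‖x‖ := by rw [hx, le_div_iff₀ hd]; linarith
  have b2 : ‖x‖ ≤ 1 := by rw [hx, div_le_one hd]; linarith
  have e : ‖((1:ℝ) / 2) ^ j • x‖ = (1 / 2) ^ j * ‖x‖ := by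
    rw [norm_smul, Real.norm_of_nonneg (by positivity)]
  have hp : (0:ℝ) < (1 / 2) ^ j := by positivity
  have c2 : ‖((1:ℝ) / 2) ^ j • x‖ ≤ (1 / 2) ^ j := by rw [e]; nlinarith
  refine ⟨((1:ℝ) / 2) ^ j • x, mem_closedBall_zero_iff.2
    (c2.trans (pow_le_one₀ (by norm_num) (by norm_num))), ?_⟩
  rw [Om_eq_Th u (j := j) (by rw [e, pow_succ]; nlinarith) c2, smul_smul, half_pow_mul, one_smul,
    hxy]

theorem Om_ev (u : ℕ → ℝ) {x : Fin n → ℝ} (h0 : x ≠ 0) :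
    ∃ N, ∀ᶠ y in 𝓝 x, Om u y = OmN u N y := by
  obtain ⟨N, hN⟩ := exists_pow_lt_of_lt_one (norm_pos_iff.2 h0) (by norm_num : (1:ℝ) / 2 < 1)
  refine ⟨N, ?_⟩
  filter_upwards [continuous_norm.continuousAt.eventually (lt_mem_nhds hN)] with y hy
  exact Om_eq_OmN u hy.le

theorem continuous_Om (hu : Adm u) : Continuous (Om u : (Fin (k + 1) → ℝ) → Fin (k + 1) → ℝ) := by
  refine continuous_iff_continuousAt.2 fun x => ?_
  by_cases h0 : x = 0
  · subst h0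
    rw [ContinuousAt, Om_zero, tendsto_zero_iff_norm_tendsto_zero]
    refine tendsto_order.2 ⟨fun a ha => Eventually.of_forall fun y => ha.trans_le (norm_nonneg _),
      fun a ha => ?_⟩
    obtain ⟨j, hj⟩ := (hu.tt_lim.eventually (gt_mem_nhds ha)).exists
    filter_upwards [closedBall_mem_nhds (0 : Fin (k + 1) → ℝ)
      (by positivity : (0:ℝ) < (1 / 2) ^ j)] with y hy
    exact (norm_Om_le hu (mem_closedBall_zero_iff.1 hy)).trans_lt hj
  · obtain ⟨N, hN⟩ := Om_ev u h0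
    exact (OmN_pl u N).1.continuousAt.congr (EventuallyEq.symm hN)

theorem conical_Om (u : ℕ → ℝ) {x : Fin n → ℝ} (h0 : x ≠ 0) : ConicalWithinAt (Om u) univ x := by
  obtain ⟨N, hN⟩ := Om_ev u h0
  exact ((OmN_pl u N).2 x (mem_univ x)).congr_nhds (Eventually.of_forall fun _ => Iff.rfl)
    (hN.mono fun y hy _ => hy) hN.self_of_nhds

end P073.Cone
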