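import Vale.Agent.P073Z.Cone.Fine
import Vale.Agent.P073Z.Cone.Om

/-!
# The cone lemmas in the cube
-/

open Set Metric Topology Filter MeasureTheory
open scoped ENNReal NNReal

namespace P073.Cone

variable {k : ℕ} {F : Type} [NormedAddCommGroup F] [NormedSpace ℝ F]

/-- the square root of the ratio -/
noncomputable def rr (k : ℕ) (p : ℝ) : ℝ≥0∞ := ((2 : ℝ≥0∞) ^ p * 2⁻¹ ^ (k + 1)) ^ (1 / 2 : ℝ)

theorem rr_mul (k : ℕ) (p : ℝ) : rr k p * rr k p = (2 : ℝ≥0∞) ^ p * 2⁻¹ ^ (k + 1) := by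
  rw [rr, ← ENNReal.rpow_add_of_nonneg _ _ (by norm_num) (by norm_num)]
  norm_num

theorem rr_lt_one {p : ℝ} (hp : p < (k:ℝ) + 1) : rr k p < 1 := by
  refine ENNReal.rpow_lt_one ?_ (by norm_num)
  have h1 : (2 : ℝ≥0∞) ^ p < 2 ^ (k + 1) := by
    rw [← ENNReal.rpow_natCast]
    exact ENNReal.rpow_lt_rpow_of_exponent_lt (by norm_num) ENNReal.ofNat_ne_top
      (by push_cast; exact hp)
  have h2 : (2 : ℝ≥0∞) ^ (k + 1) * 2⁻¹ ^ (k + 1) = 1 := by
    rw [← mul_pow, ENNReal.mul_inv_cancel two_ne_zero ENNReal.ofNat_ne_top, one_pow]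
  rw [← h2]
  exact ENNReal.mul_lt_mul_left (pow_ne_zero _ (by simp)) (ENNReal.pow_ne_top (by simp)) h1

omit [NormedSpace ℝ F] in
theorem en_Om (hB : ENB) {p : ℝ} (hp : 0 < p) (g : (Fin (k + 1) → ℝ) → F) (u : ℕ → ℝ) :
    En (k + 1) p (g ∘ Om u) (closedBall 0 1) ≤
      ∑' j, (rr k p * rr k p) ^ j * En (k + 1) p (g ∘ Th (tt u j) (u j)) (Sh (k + 1)) := by
  set O : ℕ → Set (Fin (k + 1) → ℝ) :=
    fun j => {x | (1 / 2) ^ (j + 1) < ‖x‖ ∧ ‖x‖ < (1 / 2) ^ j} with hO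
  have hOo : ∀ j, IsOpen (O j) := fun j =>
    (isOpen_lt continuous_const continuous_norm).inter (isOpen_lt continuous_norm continuous_const)
  have hae : closedBall (0 : Fin (k + 1) → ℝ) 1 ≤ᵐ[volume] ⋃ j, O j := by
    have h1 : ∀ r : ℝ, ∀ᵐ x : Fin (k + 1) → ℝ, x ∉ sphere 0 r := fun r =>
      measure_eq_zero_iff_ae_notMem.1 (Measure.addHaar_sphere volume 0 r)
    filter_upwards [h1 0, ae_all_iff.2 fun j : ℕ => h1 ((1 / 2) ^ j)] with x h0 hj hx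
    have hx0 : x ≠ 0 := by
      rintro rfl
      simp at h0
    obtain ⟨j, a1, a2⟩ := exists_shell hx0 (mem_closedBall_zero_iff.1 hx)
    exact mem_iUnion.2 ⟨j, a1, lt_of_le_of_ne a2 fun h => hj j (mem_sphere_zero_iff_norm.2 h)⟩
  rw [En, hvol]
  refine (lintegral_mono_set' hae).trans ((lintegral_iUnion_le _ _).trans
    (ENNReal.tsum_le_tsum fun j => ?_))
  set S : Set (Fin (k + 1) → ℝ) := {x | (1 / 2) ^ (j + 1) ≤ ‖x‖ ∧ ‖x‖ ≤ (1 / 2) ^ j} with hS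
  have hOS : O j ⊆ S := fun x hx => ⟨hx.1.le, hx.2.le⟩
  have hSc : IsCompact S := (isCompact_closedBall 0 ((1 / 2) ^ j)).of_isClosed_subset
    ((isClosed_le continuous_const continuous_norm).inter
      (isClosed_le continuous_norm continuous_const)) fun x hx => mem_closedBall_zero_iff.2 hx.2
  have h1 : ∫⁻ x in O j, lipAt (g ∘ Om u) (closedBall 0 1) x ^ p ≤
      En (k + 1) p ((g ∘ Th (tt u j) (u j)) ∘ fun x => (2:ℝ) ^ j • x) S := by
    rw [En, hvol]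
    refine le_trans (setLIntegral_mono' (hOo j).measurableSet fun x hx => ?_)
      (lintegral_mono_set hOS)
    refine ENNReal.rpow_le_rpow (lipAt_le_of_mem (mem_nhdsWithin_of_mem_nhds
      (mem_of_superset ((hOo j).mem_nhds hx) hOS)) (hOS hx) fun y hy => ?_) hp.le
    simp only [Function.comp]
    rw [Om_eq_Th u hy.1 hy.2]
  have hp2 : (0:ℝ) < (1 / 2) ^ j := by positivity
  have h2 := (hB (S := Fin (k + 1) → ℝ) (S' := Fin (k + 1) → ℝ) (T := F) (k + 1) hp).1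
    (X := S) (Y := Sh (k + 1)) (φ := fun x => (2:ℝ) ^ j • x) (ψ := fun x => ((1:ℝ) / 2) ^ j • x)
    (h := g ∘ Th (tt u j) (u j)) (K := 2 ^ j) (L := 2⁻¹ ^ j) hSc
    (fun x hx => scaled_mem hx.1 hx.2) ?_ ?_ ?_ ?_ ?_
  · refine h1.trans (h2.trans (le_of_eq ?_))
    congr 1
    rw [rr_mul, mul_pow, ← pow_mul, mul_comm (k + 1) j, pow_mul]
    congr 1
    · push_cast
      rw [← ENNReal.rpow_natCast, ← ENNReal.rpow_natCast, ← ENNReal.rpow_mul, ← ENNReal.rpow_mul,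
        mul_comm]
    · simp [ENNReal.inv_pow]
  · intro x hx
    have e : ‖((1:ℝ) / 2) ^ j • x‖ = (1 / 2) ^ j * ‖x‖ := by
      rw [norm_smul, Real.norm_of_nonneg hp2.le]
    have b1 := hx.1
    have b2 := hx.2
    exact ⟨by rw [e, pow_succ]; nlinarith, by rw [e]; nlinarith⟩
  · intro x _
    simp only [smul_smul]
    rw [mul_comm, half_pow_mul, one_smul]
  · intro x _
    simp only [smul_smul]
    rw [half_pow_mul, one_smul]
  · refine (LipschitzWith.of_dist_le_mul fun x y => ?_).lipschitzOnWith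
    rw [dist_smul₀, Real.norm_of_nonneg (by positivity)]
    simp
  · refine (LipschitzWith.of_dist_le_mul fun x y => ?_).lipschitzOnWith
    rw [dist_smul₀, Real.norm_of_nonneg hp2.le]
    simp

/-- the constant in the cube -/
noncomputable def Cm (k : ℕ) (p : ℝ) : ℝ≥0∞ := (1 - rr k p)⁻¹ * Cf k p

theorem inv_one_sub_ne_top {p : ℝ} (hp : p < (k:ℝ) + 1) : (1 - rr k p)⁻¹ ≠ ⊤ :=
  ENNReal.inv_ne_top.2 (tsub_pos_of_lt (rr_lt_one hp)).ne'

theorem Cm_ne_top {p : ℝ} (hp : p < (k:ℝ) + 1) : Cm k p ≠ ⊤ :=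
  ENNReal.mul_ne_top (inv_one_sub_ne_top hp) (Cf_ne_top k p)

/-- the crude bound on one shell -/
noncomputable def crude (k : ℕ) (p : ℝ) (L : ℝ≥0) : ℝ≥0∞ :=
  ((L * 2 : ℝ≥0) : ℝ≥0∞) ^ p * volume (Sh (k + 1))

theorem ev_crude {p : ℝ} (hp0 : 0 ≤ p) (hp : p < (k:ℝ) + 1) (L : ℝ≥0) {η : ℝ≥0∞} (hη : 0 < η) :
    ∀ᶠ j in atTop, rr k p ^ j * crude k p L ≤ η := by
  have h0 : crude k p L ≠ ⊤ := ENNReal.mul_ne_top
    (ENNReal.rpow_ne_top_of_nonneg hp0 ENNReal.coe_ne_top) (isCompact_Sh _).measure_lt_top.ne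
  have := ENNReal.Tendsto.mul_const
    (ENNReal.tendsto_pow_atTop_nhds_zero_of_lt_one (rr_lt_one hp)) (Or.inr h0)
  rw [zero_mul] at this
  exact this.eventually (ge_mem_nhds hη)

theorem core [FiniteDimensional ℝ F] (hB : ENB) (hS : STM) (hL : LIP) {p : ℝ} (hp1 : 1 ≤ p)
    (hp : p < (k:ℝ) + 1) {g : (Fin (k + 1) → ℝ) → F} (hg : PLOn g (Sh (k + 1))) {η : ℝ≥0∞}
    (hη : 0 < η) : ∃ (δ : ℝ) (η₁ : ℝ≥0∞), 0 < δ ∧ δ ≤ 1 / 2 ∧ 0 < η₁ ∧ ∀ (u : ℕ → ℝ) (j₀ : ℕ),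
      Adm u → (∀ j, j < j₀ → 1 - δ ≤ u j) → (∀ j, j₀ ≤ j → ∃ L : ℝ≥0,
        LipschitzOnWith L g {x | u j ≤ ‖x‖ ∧ ‖x‖ ≤ 1} ∧ rr k p ^ j * crude k p L ≤ η₁) →
      En (k + 1) p (g ∘ Om u) (closedBall 0 1) ≤ Cm k p * En k p g (sphere 0 1) + η := by
  obtain ⟨η₁, hη₁, hη₁'⟩ := ENNReal.exists_nnreal_pos_mul_lt (inv_one_sub_ne_top hp) hη.ne'
  have hη₂ : (0 : ℝ≥0∞) < η₁ := by exact_mod_cast hη₁
  obtain ⟨δ, d0, d1, hδ⟩ := fine hS hL hp1 hg hη₂
  refine ⟨δ, η₁, d0, d1, hη₂, fun u j₀ hu h1 h2 => (en_Om hB (by linarith) g u).trans ?_⟩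
  have hr := (rr_lt_one hp).le
  refine (ENNReal.tsum_le_tsum (g := fun j => rr k p ^ j * (Cf k p * En k p g (sphere 0 1) + η₁))
    fun j => ?_).trans ?_
  · rw [mul_pow, mul_assoc]
    refine mul_le_mul_right ?_ _
    rcases lt_or_ge j j₀ with hj | hj
    · refine (mul_le_of_le_one_left' (pow_le_one' hr j)).trans ?_
      exact hδ _ _ (h1 j hj) (hu.lt_tt j).le (hu.tt_le_one j)
    · obtain ⟨L, hgL, hb⟩ := h2 j hj
      refine le_trans ?_ (hb.trans le_add_self)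
      refine mul_le_mul_right ?_ _
      have hlip : LipschitzOnWith (L * 2) (g ∘ Th (tt u j) (u j)) (Sh (k + 1)) :=
        hgL.comp (lipschitz_Th (by
          rw [abs_of_pos (hu.tt_pos j), abs_of_nonneg (hu.nonneg j)]
          linarith [hu.lt_tt j, hu.tt_le_one j])).lipschitzOnWith
          (Th_mapsTo (hu.nonneg j) le_rfl (hu.lt_tt j).le (hu.tt_le_one j))
      have := (hB (S := Fin (k + 1) → ℝ) (S' := Fin (k + 1) → ℝ) (T := F) (k + 1)
        (p := p) (by linarith)).2.1 (isClosed_Sh (k + 1)).measurableSet hlip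
      rwa [hvol] at this
  · rw [ENNReal.tsum_mul_right, ENNReal.tsum_geometric, mul_add, Cm, mul_assoc]
    exact add_le_add le_rfl (by rw [mul_comm]; exact hη₁'.le)

theorem model2 [FiniteDimensional ℝ F] (hB : ENB) (hS : STM) (hL : LIP) {p : ℝ} (hp1 : 1 ≤ p)
    (hp : p < (k:ℝ) + 1) {g : (Fin (k + 1) → ℝ) → F} (hg : PLOn g (closedBall 0 1)) {η : ℝ≥0∞}
    (hη : 0 < η) : ∃ u : ℕ → ℝ, Adm u ∧ (∃ N, ∀ j, N ≤ j → u j = 0) ∧
      En (k + 1) p (g ∘ Om u) (closedBall 0 1) ≤ Cm k p * En k p g (sphere 0 1) + η := by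
  obtain ⟨δ, η₁, d0, d1, hη₁, H⟩ := core hB hS hL hp1 hp (g := g) ⟨hg.1.mono (Sh_subset _),
    hg.2.mono (locCone_shell _ _).conicalSet (Sh_subset _)⟩ hη
  obtain ⟨L, hgL⟩ := hL (isCompact_closedBall 0 1) (locCone_closedBall_pi _ _) hg
  obtain ⟨j₀, hj₀⟩ := eventually_atTop.1 (ev_crude (by linarith) hp L hη₁)
  have hu : Adm fun j => if j < j₀ then 1 - δ else 0 := by
    refine ⟨fun j => ?_, fun i j hij => ?_, ?_, ?_⟩
    · split_ifs <;> linarith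
    · split_ifs with h1 h2 h2
      · exact le_rfl
      · omega
      · linarith
      · exact le_rfl
    · split_ifs <;> linarith
    · refine tendsto_const_nhds.congr' ?_
      filter_upwards [eventually_ge_atTop j₀] with j hj
      rw [if_neg (not_lt.2 hj)]
  refine ⟨_, hu, ⟨j₀, fun j hj => if_neg (not_lt.2 hj)⟩, H _ j₀ hu (fun j hj => ?_) fun j hj =>
    ⟨L, hgL.mono fun x hx => mem_closedBall_zero_iff.2 hx.2, hj₀ j hj⟩⟩
  simp only [if_pos hj, le_refl]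

theorem model3 [FiniteDimensional ℝ F] (hB : ENB) (hS : STM) (hL : LIP) {p : ℝ} (hp1 : 1 ≤ p)
    (hp : p < (k:ℝ) + 1) {g : (Fin (k + 1) → ℝ) → F}
    (hg : ∀ a : ℝ, 0 < a → PLOn g {x | a ≤ ‖x‖ ∧ ‖x‖ ≤ 1}) {η : ℝ≥0∞}
    (hη : 0 < η) : ∃ u : ℕ → ℝ, Adm u ∧
      En (k + 1) p (g ∘ Om u) (closedBall 0 1) ≤ Cm k p * En k p g (sphere 0 1) + η := by
  classical
  obtain ⟨δ, η₁, d0, d1, hη₁, H⟩ := core hB hS hL hp1 hp (g := g) (hg _ (by norm_num)) hη
  have hLm : ∀ m : ℕ, ∃ L : ℝ≥0, LipschitzOnWith L g {x | (1 / 2) ^ m ≤ ‖x‖ ∧ ‖x‖ ≤ 1} := fun m =>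
    hL ((isCompact_closedBall 0 1).of_isClosed_subset
      ((isClosed_le continuous_const continuous_norm).inter
        (isClosed_le continuous_norm continuous_const)) fun x hx => mem_closedBall_zero_iff.2 hx.2)
      (locCone_shell _ _) (hg _ (by positivity))
  choose L hgL using hLm
  set P : ℕ → ℕ → Prop := fun j m => rr k p ^ j * crude k p (L m) ≤ η₁ with hP
  have hPev : ∀ m, ∀ᶠ j in atTop, P j m := fun m => ev_crude (by linarith) hp (L m) hη₁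
  set mm : ℕ → ℕ := fun j => Nat.findGreatest (P j) j with hmm
  have hmono : Monotone mm := fun i j hij => Nat.findGreatest_mono (fun m hm =>
    (mul_le_mul_left (pow_le_pow_right_of_le_one' (rr_lt_one hp).le hij) _).trans hm) hij
  have hlim : Tendsto mm atTop atTop := by
    refine tendsto_atTop.2 fun m => ?_
    filter_upwards [hPev m, eventually_ge_atTop m] with j h1 h2
    exact Nat.le_findGreatest h2 h1
  obtain ⟨j₀, hj₀⟩ := eventually_atTop.1 ((hPev 1).and (eventually_ge_atTop 1))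
  have hhalf : ∀ j, j₀ ≤ j → ((1:ℝ) / 2) ^ mm j ≤ 1 / 2 := fun j hj =>
    pow_le_of_le_one (by norm_num) (by norm_num)
      (Nat.one_le_iff_ne_zero.1 (Nat.le_findGreatest (hj₀ j hj).2 (hj₀ j hj).1))
  have hu : Adm fun j => if j < j₀ then 1 - δ else (1 / 2) ^ mm j := by
    refine ⟨fun j => ?_, fun i j hij => ?_, ?_, ?_⟩
    · split_ifs
      · linarith
      · positivity
    · split_ifs with h1 h2 h2
      · exact le_rfl
      · omega
      · linarith [hhalf j (not_lt.1 h1)]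
      · exact pow_le_pow_of_le_one (by norm_num) (by norm_num) (hmono hij)
    · split_ifs with h1
      · linarith
      · linarith [hhalf 0 (not_lt.1 h1)]
    · refine ((tendsto_pow_atTop_nhds_zero_of_lt_one (by norm_num : (0:ℝ) ≤ 1 / 2)
        (by norm_num)).comp hlim).congr' ?_
      filter_upwards [eventually_ge_atTop j₀] with j hj
      rw [if_neg (not_lt.2 hj)]
      rfl
  refine ⟨_, hu, H _ j₀ hu (fun j hj => ?_) fun j hj => ⟨L (mm j), ?_, ?_⟩⟩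
  · simp only [if_pos hj, le_refl]
  · simp only [if_neg (not_lt.2 hj)]
    exact hgL _
  · exact Nat.findGreatest_spec (P := P j) (hj₀ j hj).2 (hj₀ j hj).1

end P073.Cone
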