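import Vale.Agent.P073Z.Cone.Map

/-!
# The PL radial projection pushes the volume to a multiple of the area
-/

open Set Metric Topology Filter MeasureTheory
open scoped ENNReal NNReal

namespace P073.Cone

/-- the model shell -/
def Sh (n : ℕ) : Set (Fin n → ℝ) := {x | 1 / 2 ≤ ‖x‖ ∧ ‖x‖ ≤ 1}

theorem isClosed_Sh (n : ℕ) : IsClosed (Sh n) :=
  (isClosed_le continuous_const continuous_norm).inter (isClosed_le continuous_norm continuous_const)

theorem Sh_subset (n : ℕ) : Sh n ⊆ closedBall 0 1 := fun _ hx => mem_closedBall_zero_iff.2 hx.2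

theorem isCompact_Sh (n : ℕ) : IsCompact (Sh n) :=
  (isCompact_closedBall 0 1).of_isClosed_subset (isClosed_Sh n) (Sh_subset n)

theorem hvol (n : ℕ) : (μH[(n:ℝ)] : Measure (Fin n → ℝ)) = volume := by
  simpa using hausdorffMeasure_pi_real (ι := Fin n)

theorem psi_inv (v : ℝ) {c : ℝ} (hc : 0 ≤ c) : (v + cl v c) - cl ((v + cl v c) / 2) c = v := by
  rcases le_total c v with h | h
  · rw [cl_of_le hc h, cl_of_le hc (by linarith)]; ring
  rcases le_total v (-c) with h' | h'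
  · rw [cl_of_ge hc h', cl_of_ge hc (by linarith)]; ring
  · have : |v| ≤ c := abs_le.2 ⟨h', h⟩
    rw [cl_of_abs_le this, show (v + v) / 2 = v by ring, cl_of_abs_le this]; ring

variable {k : ℕ}

theorem pr_mem {x : Fin (k + 1) → ℝ} (hx : x ∈ Sh (k + 1)) :
    Th 1 1 x ∈ sphere (0 : Fin (k + 1) → ℝ) 1 := by
  rw [mem_sphere_zero_iff_norm, norm_Th zero_le_one zero_le_one hx.1 hx.2]; ring

theorem exists_face {y : Fin (k + 1) → ℝ} (hy : y ∈ sphere (0 : Fin (k + 1) → ℝ) 1) :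
    ∃ i, ∃ b : Bool, y i = if b then 1 else -1 := by
  obtain ⟨i, hi⟩ := exists_abs_eq_norm y
  rw [mem_sphere_zero_iff_norm.1 hy] at hi
  rcases (abs_eq zero_le_one).1 hi with h | h
  · exact ⟨i, true, by simpa using h⟩
  · exact ⟨i, false, by simpa using h⟩

/-- the parametrisation of the frustum over a face -/
noncomputable def Gf (i : Fin (k + 1)) (ε : ℝ) (w : Fin (k + 1) → ℝ) : Fin (k + 1) → ℝ :=
  fun m => Function.update w i ε m - cl (Function.update w i ε m / 2) (1 - w i)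

theorem lipschitz_Gf (i : Fin (k + 1)) (ε : ℝ) : LipschitzWith 2 (Gf i ε) := by
  refine LipschitzWith.of_dist_le_mul fun w w' => ?_
  rw [dist_eq_norm, dist_eq_norm]
  refine (pi_norm_le_iff_of_nonneg (by positivity)).2 fun m => ?_
  have h1 : |Function.update w i ε m - Function.update w' i ε m| ≤ ‖w - w'‖ := by
    by_cases hm : m = i
    · subst hm; simp
    · rw [Function.update_of_ne hm, Function.update_of_ne hm]; exact abs_le_norm (w - w') m
  have h2 : |cl (Function.update w i ε m / 2) (1 - w i) -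
      cl (Function.update w' i ε m / 2) (1 - w' i)| ≤ ‖w - w'‖ := by
    refine (abs_cl_sub _ _ _ _).trans (max_le ?_ ?_)
    · rw [← sub_div, abs_div, abs_two]
      linarith [norm_nonneg (w - w')]
    · rw [show 1 - w i - (1 - w' i) = -(w i - w' i) by ring, abs_neg]
      exact abs_le_norm (w - w') i
  rw [Real.norm_eq_abs, Pi.sub_apply]
  unfold Gf
  rw [sub_sub_sub_comm]
  refine (abs_sub _ _).trans ?_
  push_cast
  linarith

theorem vol_face (i : Fin (k + 1)) (ε : ℝ) (A : Set (Fin k → ℝ)) :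
    volume {x ∈ Sh (k + 1) | Th 1 1 x i = ε ∧ Fin.removeNth i (Th 1 1 x) ∈ A} ≤
      2 ^ (k + 1) * volume A := by
  set W : Set (Fin (k + 1) → ℝ) :=
    MeasurableEquiv.piFinSuccAbove (fun _ => ℝ) i ⁻¹' (Icc (0:ℝ) 1 ×ˢ A) with hW
  have hvW : volume W = volume A := by
    rw [hW, (volume_preserving_piFinSuccAbove (fun _ => ℝ) i).measure_preimage_equiv,
      Measure.volume_eq_prod, Measure.prod_prod]
    simp
  have hsub : {x ∈ Sh (k + 1) | Th 1 1 x i = ε ∧ Fin.removeNth i (Th 1 1 x) ∈ A} ⊆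
      Gf i ε '' W := by
    rintro x ⟨hx, hε, hA⟩
    refine ⟨Function.update (Th 1 1 x) i ‖x‖, ?_, ?_⟩
    · show (Function.update (Th 1 1 x) i ‖x‖ i,
        Fin.removeNth i (Function.update (Th 1 1 x) i ‖x‖)) ∈ Icc (0:ℝ) 1 ×ˢ A
      rw [Function.update_self, Fin.removeNth_update]
      exact ⟨⟨norm_nonneg _, hx.2⟩, hA⟩
    · funext m
      unfold Gf
      rw [Function.update_idem, ← hε, Function.update_eq_self, Function.update_self,
        Th_apply hx.2, one_mul, one_mul]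
      exact psi_inv _ (by linarith [hx.2])
  refine (measure_mono hsub).trans ?_
  have := (lipschitz_Gf i ε).hausdorffMeasure_image_le (d := ((k + 1 : ℕ) : ℝ)) (by positivity) W
  rw [hvol, hvW, ENNReal.rpow_natCast] at this
  simpa using this

theorem lipschitz_removeNth (i : Fin (k + 1)) :
    LipschitzWith 1 (fun y : Fin (k + 1) → ℝ => (Fin.removeNth i y : Fin k → ℝ)) := by
  refine LipschitzWith.of_dist_le_mul fun w w' => ?_
  rw [NNReal.coe_one, one_mul]
  exact (dist_pi_le_iff dist_nonneg).2 fun j => dist_le_pi_dist w w' (i.succAbove j)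

/-- the constant -/
noncomputable def Cp (k : ℕ) : ℝ≥0∞ := ((k + 1 : ℕ) * 2 : ℕ) * 2 ^ (k + 1)

theorem Cp_ne_top (k : ℕ) : Cp k ≠ ⊤ :=
  ENNReal.mul_ne_top (ENNReal.natCast_ne_top _) (ENNReal.pow_ne_top ENNReal.ofNat_ne_top)

theorem push_le (A : Set (Fin (k + 1) → ℝ)) :
    volume (Th 1 1 ⁻¹' A ∩ Sh (k + 1)) ≤ Cp k * μH[(k:ℝ)] (A ∩ sphere 0 1) := by
  have hsub : Th 1 1 ⁻¹' A ∩ Sh (k + 1) ⊆ ⋃ q : Fin (k + 1) × Bool,
      {x ∈ Sh (k + 1) | Th 1 1 x q.1 = (if q.2 then 1 else -1) ∧ Fin.removeNth q.1 (Th 1 1 x) ∈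
        (fun y : Fin (k + 1) → ℝ => (Fin.removeNth q.1 y : Fin k → ℝ)) '' (A ∩ sphere 0 1)} := by
    rintro x ⟨hA, hx⟩
    obtain ⟨i, b, hi⟩ := exists_face (pr_mem hx)
    exact mem_iUnion.2 ⟨(i, b), hx, hi, mem_image_of_mem _ ⟨hA, pr_mem hx⟩⟩
  refine (measure_mono hsub).trans ((measure_iUnion_fintype_le _ _).trans ?_)
  refine (Finset.sum_le_card_nsmul _ _ (2 ^ (k + 1) * μH[(k:ℝ)] (A ∩ sphere 0 1))
    fun q _ => (vol_face _ _ _).trans ?_).trans ?_
  · have := (lipschitz_removeNth q.1).hausdorffMeasure_image_le (d := (k:ℝ)) (by positivity)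
      (A ∩ sphere 0 1)
    rw [hvol] at this
    simp only [ENNReal.coe_one, ENNReal.one_rpow, one_mul] at this
    exact mul_le_mul_right this _
  · rw [Finset.card_univ, Fintype.card_prod, Fintype.card_fin, Fintype.card_bool, nsmul_eq_mul,
      Cp, mul_assoc]

theorem lintegral_push {F : (Fin (k + 1) → ℝ) → ℝ≥0∞}
    (hF : AEMeasurable F ((μH[(k:ℝ)]).restrict (sphere (0 : Fin (k + 1) → ℝ) 1))) :
    ∫⁻ x in Sh (k + 1), F (Th 1 1 x) ≤
      Cp k * ∫⁻ y in sphere (0 : Fin (k + 1) → ℝ) 1, F y ∂μH[(k:ℝ)] := by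
  have hm : Measurable (Th 1 1 : (Fin (k + 1) → ℝ) → Fin (k + 1) → ℝ) :=
    (continuous_Th 1 1).measurable
  have hle : Measure.map (Th 1 1) (volume.restrict (Sh (k + 1))) ≤
      Cp k • (μH[(k:ℝ)]).restrict (sphere (0 : Fin (k + 1) → ℝ) 1) := by
    refine Measure.le_iff.2 fun A hA => ?_
    rw [Measure.map_apply hm hA, Measure.restrict_apply (hm hA), Measure.smul_apply,
      Measure.restrict_apply hA, smul_eq_mul]
    exact push_le A
  have hF' : AEMeasurable F (Measure.map (Th 1 1) (volume.restrict (Sh (k + 1)))) :=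
    (hF.smul_measure (Cp k)).mono_measure hle
  rw [← lintegral_map' hF' hm.aemeasurable]
  refine (lintegral_mono' hle le_rfl).trans ?_
  rw [lintegral_smul_measure, smul_eq_mul]

end P073.Cone
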